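import Mathlib
import Vale.Agent.Lib.P204.Torus

/-!
# P204: tamed-to-compatible for `T^3`-invariant almost complex structures on the four-torus

Objects on `T^4 = R^4 / Z^4` are written as `Z^4`-periodic objects on `R^4 = Fin 4 → ℝ`.
The almost complex structure `J` is assumed to depend on the coordinate `x 0` only; the taming
closed two-form `Ω` is arbitrary (no invariance is assumed).
-/

open scoped ContDiff

namespace Vale.Agent.Results.P204.TorusT3Invariant

/-- The space `R^4`. -/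
abbrev R4 : Type := Fin 4 → ℝ

/-- Fields of two-forms on `R^4`. -/
abbrev TwoFormField : Type := R4 → R4 [⋀^Fin 2]→L[ℝ] ℝ

/-- Fields of endomorphisms of the tangent spaces of `R^4`. -/
abbrev EndField : Type := R4 → R4 →L[ℝ] R4

/-- `Z^4`-periodicity: the field descends to the torus `T^4 = R^4 / Z^4`. -/
def Periodic {α : Type} (f : R4 → α) : Prop :=
  ∀ (x : R4) (k : Fin 4 → ℤ), f (x + fun i => (k i : ℝ)) = f x

/-- A smooth almost complex structure on `T^4`. -/
def IsAlmostComplex (J : EndField) : Prop :=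
  ContDiff ℝ ∞ J ∧ Periodic J ∧ ∀ x v, J x (J x v) = -v

/-- `J` depends on the coordinate `x 0` only: it is invariant under the translations of
`T^3` in the other three coordinates. -/
def T3Invariant (J : EndField) : Prop := ∀ x y : R4, x 0 = y 0 → J x = J y

/-- A smooth closed two-form on `T^4`. -/
def IsClosedForm (Ω : TwoFormField) : Prop :=
  ContDiff ℝ ∞ Ω ∧ Periodic Ω ∧ ∀ x, extDeriv Ω x = 0

/-- `Ω` tames `J`. -/
def Tames (Ω : TwoFormField) (J : EndField) : Prop :=
  ∀ x v, v ≠ 0 → 0 < Ω x ![v, J x v]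

/-- `Ω` is compatible with `J`: it tames `J` and is `J`-invariant. -/
def Compatible (Ω : TwoFormField) (J : EndField) : Prop :=
  Tames Ω J ∧ ∀ x u v, Ω x ![J x u, J x v] = Ω x ![u, v]

theorem result (J : EndField) (hJ : IsAlmostComplex J) (hinv : T3Invariant J)
    (h : ∃ Ω, IsClosedForm Ω ∧ Tames Ω J) : ∃ Ω', IsClosedForm Ω' ∧ Compatible Ω' J := by
  obtain ⟨Ω, ⟨hΩs, hΩper, hΩcl⟩, htame⟩ := h
  obtain ⟨hJs, hJper, hJ2⟩ := hJ
  obtain ⟨Ω', h1, h2, h3, h4, h5⟩ :=
    Vale.Agent.Lib.P204.main J hJs hJ2 hJper hinv Ω hΩs hΩper hΩcl htame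
  exact ⟨Ω', ⟨h1, h2, h3⟩, h4, h5⟩

end Vale.Agent.Results.P204.TorusT3Invariant
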